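import Vale.Agent.P011UT4.Kit
import Vale.Agent.P011UC.Defs2
import Vale.Agent.P011UB.Iw

/-!
The kernel of the adjoint representation; integrality of torus elements.
-/

set_option autoImplicit false
set_option linter.all false

namespace Vale.Agent.P011UBT

open Matrix Polynomial Vale.Agent.P011L Vale.Agent.P183CH Vale.Agent.P183CH.Chev
  Vale.Agent.P011U Vale.Agent.P011UGA Vale.Agent.P011UT4

theorem cen : CEN := fun D => ⟨_, Int.natAbs_pos.2 (R_ok D).det, fun K _ _ z h => by
  have hΓ : (GG D K).Ok := GG_ok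
  have hR := R_ok D
  have h0 : ∀ γ ∈ D.R.Φ, ∀ t, (GG D K).x γ t * z = z * (GG D K).x γ t := fun γ m t => by
    have c : Commute (ct K (D.EE γ 1)) z.1.1 := by
      have := congrArg (· * z.1.1) (h _ (P011UC.lie_e (mem_Φ.1 m) (RS.In_univ γ)))
      simp only [Ad_apply, mul_assoc, Units.inv_mul, mul_one] at this
      exact this.symm
    refine Subtype.ext (Units.ext (show Commute ((GG D K).x γ t).1.1 z.1.1 from ?_))
    rw [P011UC.x_val m]
    refine Commute.sum_left _ _ _ fun a _ => Commute.smul_left ?_ _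
    have e := (c.pow_left a).smul_left ((a.factorial : K)⁻¹)
    rwa [← map_pow, (mem_Φ.1 m).rh.dp.pow, map_nsmul, ← Nat.cast_smul_eq_nsmul K, smul_smul,
      inv_mul_cancel₀ (Nat.cast_ne_zero.2 a.factorial_ne_zero), one_smul] at e
  have h1 : ∀ g, z * g = g * z := fun g => (Subgroup.mem_centralizer_singleton_iff.1
    ((hΓ.gen.ge.trans ((Subgroup.closure_le (Subgroup.centralizer {z})).2 (by
      rintro _ ⟨i, t, rfl | rfl⟩
      · exact Subgroup.mem_centralizer_singleton_iff.2 (h0 _ (hR.simple i) t)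
      · exact Subgroup.mem_centralizer_singleton_iff.2 (h0 _ (hR.neg_mem (hR.simple i)) t))))
      (Subgroup.mem_top g))).symm
  have h2 : ∀ g, z * g * z⁻¹ = g := fun g => by rw [h1, mul_inv_cancel_right]
  have ht := P011UB.mem_T_of_nm hΓ hR (g := z) (fun u hu => by rwa [h2]) fun u hu => by rwa [h2]
  exact ⟨h1, pow_natAbs_eq_one.2 (hΓ.det_chi hR ht fun i =>
    hΓ.chi_eq hR (hR.simple i) ht (c := 1) (h2 _))⟩⟩

/-- the units which are integral together with their inverses -/
def Iu (O K : Type) [CommRing O] [Field K] [Algebra O K] : Subgroup Kˣ where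
  carrier := {u | IsIntegral O (u : K) ∧ IsIntegral O ((u⁻¹ : Kˣ) : K)}
  one_mem' := ⟨isIntegral_one, isIntegral_one⟩
  mul_mem' := fun h h' => ⟨h.1.mul h'.1, by
    rw [_root_.mul_inv_rev, Units.val_mul]; exact h'.2.mul h.2⟩
  inv_mem' := fun h => ⟨h.2, h.1⟩

theorem int_hT {O K : Type} [CommRing O] [Field K] [Algebra O K] {D : Chev} {m : ℕ}
    {b : Fin m → D.Mat K} {ρ : D.grp K →* Matrix (Fin m) (Fin m) K} (hb : Bs b) (hρ : Rp b ρ)
    {s : Fin D.R.r → Kˣ} (hs : ∀ i, s i ∈ Iu O K) : IsIntegral O (ρ (hT D K s)) := by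
  obtain ⟨μ, h1, h2⟩ : ∃ μ : Fin D.n → Fin D.n → K, (∀ a c, IsIntegral O (μ a c)) ∧
      ∀ X a c, Ad (hT D K s).1 X a c = μ a c * X a c :=
    ⟨fun a c => ((∏ i, s i ^ D.μ i a) * ∏ i, s⁻¹ i ^ D.μ i c : Kˣ), fun a c =>
      (mul_mem (prod_mem fun i _ => zpow_mem (hs i) _)
        (prod_mem fun i _ => zpow_mem (inv_mem (hs i)) _) : _ ∈ Iu O K).1, fun X a c => by
      rw [Ad_apply, ← Subgroup.coe_inv, ← map_inv, hT_val, hT_val, mul_diagonal, diagonal_mul,
        mul_right_comm]
      rfl⟩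
  choose q q1 q2 using h1
  have k : ∀ (p : O[X]) y a c, co b (aeval (ρ (hT D K s)) p *ᵥ y) a c =
      aeval (μ a c) p * co b y a c := fun p y a c => by
    induction p using Polynomial.induction_on with
    | C x =>
      rw [aeval_C, aeval_C, Algebra.algebraMap_eq_smul_one, smul_mulVec, one_mulVec,
        ← algebraMap_smul K, map_smul, Matrix.smul_apply, smul_eq_mul]
    | add p p' e e' => rw [map_add, map_add, add_mulVec, map_add, Matrix.add_apply, e, e', add_mul]
    | monomial n x e =>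
      rw [pow_succ', mul_left_comm, map_mul, map_mul (aeval (μ a c)), aeval_X, aeval_X,
        ← mulVec_mulVec, ← hρ.co, h2, e, mul_assoc]
  refine ⟨∏ e : Fin D.n × Fin D.n, q e.1 e.2, monic_prod_of_monic _ _ fun e _ => q1 _ _,
    mat_ext hb fun y => Matrix.ext fun a c => ?_⟩
  rw [← aeval_def, k, map_prod, Finset.prod_eq_zero (Finset.mem_univ (a, c)) (q2 a c), zero_mul,
    zero_mulVec, map_zero, Matrix.zero_apply]

theorem int : P011UT4.INT := by
  intro k K _ _ _ _ _ D hD T F m b M ρ r h _ ε π j O w γ h1 h2 e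
  have key : ∀ (γ : T.fix) (s : Fin D.R.r → Fˣ), (∀ i, s i ∈ Iu O F) →
      γ.1 = fm D (algebraMap F K) (hT D F s) → IsIntegral O (r γ) := fun γ s hs e => by
    refine (isIntegral_algHom_iff (IsScalarTower.toAlgHom O k K).mapMatrix
      (Matrix.map_injective (algebraMap k K).injective)).1 ?_
    rw [show (IsScalarTower.toAlgHom O k K).mapMatrix (r γ) = ρ γ.1 from h.rr γ, e, fm_hT]
    exact int_hT ((bs_map _ b).2 h.bs) h.rp fun i =>
      ⟨(hs i).1.map (IsScalarTower.toAlgHom O F K), (hs i).2.map (IsScalarTower.toAlgHom O F K)⟩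
  have hs : ∀ i, nrm ε π j w i ∈ Iu O F := fun i => by
    rw [nrm, Finset.prod_apply]
    refine prod_mem fun σ _ => ?_
    by_cases c : i = π σ j
    · rw [c, Pi.mulSingle_eq_same]
      exact zpow_mem (show Units.map (σ : F →* F) w ∈ Iu O F from
        ⟨h1.map (σ.toAlgHom.restrictScalars O), h2.map (σ.toAlgHom.restrictScalars O)⟩) _
    · rw [Pi.mulSingle_eq_of_ne c]
      exact one_mem _
  exact ⟨key γ _ hs e, key γ⁻¹ (nrm ε π j w)⁻¹ (fun i => inv_mem (hs i))
    (by rw [map_inv, map_inv, ← e]; rfl)⟩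

end Vale.Agent.P011UBT
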